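import Mathlib

/-! P082: bounded Hochschild cohomology of a von Neumann algebra with values in itself. -/

noncomputable section

namespace Vale.Agent.P082

open Finset

/-- The Hochschild differential of a `k`-cochain. -/
def hd {A : Type*} [Ring A] [Module ℂ A] (k : ℕ) (f : (Fin k → A) → A) (a : Fin (k + 1) → A) : A :=
  a 0 * f (Fin.tail a) +
    (∑ j : Fin k, (-1 : ℂ) ^ ((j : ℕ) + 1) • f (Fin.contractNth j.castSucc (· * ·) a)) +
    (-1 : ℂ) ^ (k + 1) • (f (Fin.init a) * a (Fin.last k))

/-- The bounded cohomology of a normed algebra with values in itself vanishes in degree `n + 1`. -/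
def VanishesAlg (A : Type) [NormedRing A] [NormedAlgebra ℂ A] (n : ℕ) : Prop :=
  ∀ f : ContinuousMultilinearMap ℂ (fun _ : Fin (n + 1) => A) A, (∀ a, hd (n + 1) f a = 0) →
    ∃ g : ContinuousMultilinearMap ℂ (fun _ : Fin n => A) A, ∀ a, hd n g a = f a

variable {H : Type} [NormedAddCommGroup H] [InnerProductSpace ℂ H] [CompleteSpace H]

/-- The bounded `k`-cochains of `M` with values in `M`. -/
abbrev Cochain (M : VonNeumannAlgebra H) (k : ℕ) : Type :=
  ContinuousMultilinearMap ℂ (fun _ : Fin k => M.toStarSubalgebra) M.toStarSubalgebra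

/-- The bounded cohomology of `M` in degree `n + 1` vanishes. -/
def Vanishes (M : VonNeumannAlgebra H) (n : ℕ) : Prop :=
  VanishesAlg M.toStarSubalgebra n

/-- `M` is generated as a von Neumann algebra by a countable set. -/
def CountGen (M : VonNeumannAlgebra H) : Prop :=
  ∃ S : Set (H →L[ℂ] H), S.Countable ∧
    (M : Set (H →L[ℂ] H)) = Set.centralizer (Set.centralizer (S ∪ star S))

end Vale.Agent.P082
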