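import Vale.Agent.P082.Weak

/-! P082: the trace preserving conditional expectation onto a von Neumann subalgebra. -/

set_option linter.unusedSectionVars false

noncomputable section

namespace Vale.Agent.P082

open Filter Topology
open scoped InnerProductSpace

variable {H : Type} [NormedAddCommGroup H] [InnerProductSpace ℂ H] [CompleteSpace H]

/-- The vector functional of `Ω`. -/
def vst (Ω : H) (a : H →L[ℂ] H) : ℂ := ⟪Ω, a Ω⟫_ℂ

/-- `Ω` is a tracial separating vector of `M`. -/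
structure TraceVec (M : VonNeumannAlgebra H) (Ω : H) : Prop where
  trace : ∀ a ∈ M, ∀ b ∈ M, vst Ω (a * b) = vst Ω (b * a)
  sep : ∀ a ∈ M, a Ω = 0 → a = 0

lemma vst_add (Ω : H) (a b : H →L[ℂ] H) : vst Ω (a + b) = vst Ω a + vst Ω b := by simp [vst]

lemma vst_sub (Ω : H) (a b : H →L[ℂ] H) : vst Ω (a - b) = vst Ω a - vst Ω b := by simp [vst]

lemma vst_smul (Ω : H) (c : ℂ) (a : H →L[ℂ] H) : vst Ω (c • a) = c * vst Ω a := by
  simp [vst]

lemma norm_vst_le (Ω : H) (a : H →L[ℂ] H) : ‖vst Ω a‖ ≤ ‖a‖ * ‖Ω‖ ^ 2 :=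
  (norm_inner_le_norm _ _).trans (by
    rw [sq, ← mul_assoc, mul_comm ‖Ω‖]
    exact mul_le_mul_of_nonneg_right (a.le_opNorm Ω) (norm_nonneg _))

lemma vst_star_mul (Ω : H) (a b : H →L[ℂ] H) : vst Ω (star a * b) = ⟪a Ω, b Ω⟫_ℂ := by
  simp [vst, ContinuousLinearMap.star_eq_adjoint, ContinuousLinearMap.adjoint_inner_right]

lemma cfc_mem (N : VonNeumannAlgebra H) {q : H →L[ℂ] H} (hq : q ∈ N) (f : ℝ → ℝ) : cfc f q ∈ N := by
  rw [← VonNeumannAlgebra.commutant_commutant N, VonNeumannAlgebra.mem_commutant_iff]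
  intro a ha
  exact ((show Commute q a from VonNeumannAlgebra.mem_commutant_iff.1 ha q hq).cfc_real f).symm.eq

lemma smul_mem' (N : VonNeumannAlgebra H) (c : ℂ) {a : H →L[ℂ] H} (ha : a ∈ N) : c • a ∈ N :=
  N.toStarSubalgebra.toSubalgebra.smul_mem ha c

variable {M N : VonNeumannAlgebra H} {Ω : H}

/-- A vector functional of an element of `M` is dominated on the ball of `N`. -/
lemma ball_dominates (h : TraceVec M Ω) (hN : (N : Set (H →L[ℂ] H)) ⊆ M) {p x : H →L[ℂ] H}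
    (hp : p ∈ N) (hx : x ∈ M) {ε : ℝ} (hε : 0 < ε) :
    ∃ y ∈ N, ‖y‖ ≤ ‖x‖ ∧ (vst Ω (p * x)).re ≤ (vst Ω (p * y)).re + ε := by
  set η : ℝ := ε / (2 * ‖x‖ * ‖Ω‖ ^ 2 + 1)
  have hη : 0 < η := by positivity
  set q := p * star p with hq
  have hqN : q ∈ N := mul_mem hp (star_mem hp)
  have hsa : IsSelfAdjoint q := IsSelfAdjoint.mul_star_self p
  set s : ℝ → ℝ := fun t => Real.sqrt t + η with hs
  have hs0 : ∀ t, 0 < s t := fun t => add_pos_of_nonneg_of_pos (Real.sqrt_nonneg _) hη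
  have hsne : ∀ t, Real.sqrt t + η ≠ 0 := fun t => (hs0 t).ne'
  have hinv : Continuous fun t => (s t)⁻¹ := (Real.continuous_sqrt.add continuous_const).inv₀ hsne
  set n := star p * cfc (fun t => (s t)⁻¹) q with hn
  set r := cfc (fun t => Real.sqrt (s t)) q with hr
  have hrs : star r = r := (cfc_predicate (fun t => Real.sqrt (s t)) q).star_eq
  have hnN : n ∈ N := mul_mem (star_mem hp) (cfc_mem N hqN _)
  have hrN : r ∈ N := cfc_mem N hqN _
  have hrr : r * r = cfc s q := by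
    rw [hr, ← cfc_mul _ _ q (by fun_prop) (by fun_prop)]
    exact cfc_congr fun t _ => Real.mul_self_sqrt (hs0 t).le
  have hpn : p * n = cfc (fun t => t * (s t)⁻¹) q := by
    rw [cfc_mul (fun t : ℝ => t) _ q continuousOn_id hinv.continuousOn, cfc_id' ℝ q, hn, ← mul_assoc]
  have hspec : ∀ t ∈ spectrum ℝ q, 0 ≤ t := fun t ht =>
    spectrum_nonneg_of_nonneg (mul_star_self_nonneg p) ht
  have hnn : ‖n‖ ≤ 1 := by
    have e : star n * n = cfc (fun t => (s t)⁻¹ * (t * (s t)⁻¹)) q := by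
      rw [cfc_mul _ _ q hinv.continuousOn (continuous_id'.fun_mul hinv).continuousOn, ← hpn, hn, star_mul,
        star_star, (cfc_predicate (fun t => (s t)⁻¹) q).star_eq]
      simp only [mul_assoc]
    have hle : ‖star n * n‖ ≤ 1 := by
      rw [e]
      refine norm_cfc_le zero_le_one fun t ht => ?_
      have ht0 := hspec t ht
      rw [Real.norm_of_nonneg (by have := hs0 t; positivity)]
      have hst : t ≤ s t ^ 2 := by
        have := Real.sq_sqrt ht0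
        nlinarith [Real.sqrt_nonneg t, hη]
      field_simp [hs0 t]
      exact hst
    rw [CStarRing.norm_star_mul_self, ← sq] at hle
    exact abs_le_of_sq_le_sq' (by simpa using hle) zero_le_one |>.2
  have hbn : star p = n * cfc s q := by
    rw [hn, mul_assoc, ← cfc_mul _ _ q hinv.continuousOn (by fun_prop), cfc_congr (g := fun _ => (1:ℝ))
      (fun t _ => inv_mul_cancel₀ (hs0 t).ne'), cfc_const (1 : ℝ) q hsa, map_one, mul_one]
  refine ⟨(‖x‖ : ℂ) • n, smul_mem' N _ hnN, ?_, ?_⟩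
  · rw [norm_smul, Complex.norm_real, norm_norm]
    exact mul_le_of_le_one_right (norm_nonneg _) hnn
  have hzM : star n * x ∈ M := mul_mem (star_mem (hN hnN)) hx
  have hp' : p = r * r * star n := by
    have := congrArg star hbn
    rwa [star_star, star_mul, ← hrr, star_mul, hrs] at this
  -- the value on `x`
  have hup : ‖vst Ω (p * x)‖ ≤ ‖x‖ * ‖r Ω‖ ^ 2 := by
    set z := star n * x
    have e : vst Ω (p * x) = ⟪r Ω, (r * z) Ω⟫_ℂ := by
      rw [← vst_star_mul, hrs, hp']; simp only [z, mul_assoc]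
    rw [e]
    refine (norm_inner_le_norm _ _).trans ?_
    have e2 : ‖(r * z) Ω‖ = ‖(star z * r) Ω‖ := by
      have t1 := h.trace (star (r * z)) (star_mem (mul_mem (hN hrN) hzM)) (r * z) (mul_mem (hN hrN) hzM)
      have t2 : vst Ω (star (r * z) * (r * z)) = vst Ω (star (star z * r) * (star z * r)) := by
        rw [t1]; simp only [star_mul, star_star, hrs, mul_assoc]
      rw [vst_star_mul, vst_star_mul, inner_self_eq_norm_sq_to_K, inner_self_eq_norm_sq_to_K] at t2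
      have t3 : ‖(r * z) Ω‖ ^ 2 = ‖(star z * r) Ω‖ ^ 2 := by exact_mod_cast t2
      exact (sq_eq_sq₀ (norm_nonneg _) (norm_nonneg _)).1 t3
    rw [e2, mul_apply_eq_comp, sq, ← mul_assoc, mul_comm ‖x‖, mul_assoc]
    refine mul_le_mul_of_nonneg_left (((star z).le_opNorm _).trans ?_) (norm_nonneg _)
    refine mul_le_mul_of_nonneg_right ?_ (norm_nonneg _)
    rw [norm_star]
    exact (norm_mul_le _ _).trans (mul_le_of_le_one_left (norm_nonneg _) (by rwa [norm_star]))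
  -- the value on `n`
  have hlo : ‖r Ω‖ ^ 2 - (vst Ω (p * n)).re ≤ 2 * η * ‖Ω‖ ^ 2 := by
    have e : vst Ω (r * r) = (‖r Ω‖ ^ 2 : ℝ) := by
      nth_rw 1 [← hrs]
      rw [vst_star_mul, inner_self_eq_norm_sq_to_K]; simp
    have hd : ‖r * r - p * n‖ ≤ 2 * η := by
      rw [hrr, hpn, ← cfc_sub s (fun t => t * (s t)⁻¹) q (by fun_prop) (continuous_id'.fun_mul hinv).continuousOn]
      refine norm_cfc_le (by positivity) fun t ht => ?_
      have hs2 : t = Real.sqrt t ^ 2 := (Real.sq_sqrt (hspec t ht)).symm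
      rw [Real.norm_eq_abs, ← div_eq_mul_inv, sub_div' (hs0 t).ne', abs_div, abs_of_pos (hs0 t),
        div_le_iff₀ (hs0 t), abs_le]
      constructor <;> simp only [hs] <;> nlinarith [Real.sqrt_nonneg t, mul_nonneg (Real.sqrt_nonneg t) hη.le]
    have h1 := (Complex.re_le_norm _).trans (norm_vst_le Ω (r * r - p * n))
    rw [vst_sub, Complex.sub_re, e, Complex.ofReal_re] at h1
    exact h1.trans (mul_le_mul_of_nonneg_right hd (sq_nonneg _))
  rw [mul_smul_comm, vst_smul, Complex.re_ofReal_mul]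
  have hsmall : ‖x‖ * (2 * η * ‖Ω‖ ^ 2) ≤ ε := by
    rw [show ‖x‖ * (2 * η * ‖Ω‖ ^ 2) = η * (2 * ‖x‖ * ‖Ω‖ ^ 2) by ring]
    calc η * (2 * ‖x‖ * ‖Ω‖ ^ 2) ≤ η * (2 * ‖x‖ * ‖Ω‖ ^ 2 + 1) :=
          mul_le_mul_of_nonneg_left (by linarith) hη.le
      _ = ε := by simp only [η]; field_simp
  have h2 := mul_le_mul_of_nonneg_left hlo (norm_nonneg x)
  rw [mul_sub] at h2
  linarith [(Complex.re_le_norm _).trans hup]

/-- The finite dimensional approximation of the conditional expectation. -/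
lemma approx_finset (h : TraceVec M Ω) (hN : (N : Set (H →L[ℂ] H)) ⊆ M) {x : H →L[ℂ] H} (hx : x ∈ M)
    (s : Finset (H →L[ℂ] H)) (hsN : ∀ m ∈ s, m ∈ N) {ε : ℝ} (hε : 0 < ε) :
    ∃ y ∈ N, ‖y‖ ≤ ‖x‖ ∧ ∀ m ∈ s, ‖vst Ω (m * y) - vst Ω (m * x)‖ < ε := by
  classical
  set K : Set (↥s → ℂ) := (fun y => fun m : ↥s => vst Ω ((m : H →L[ℂ] H) * y)) '' {y | y ∈ N ∧ ‖y‖ ≤ ‖x‖}
  have hK : Convex ℝ K := by
    rintro _ ⟨a, ha, rfl⟩ _ ⟨b, hb, rfl⟩ c d hc hd hcd
    refine ⟨(c : ℂ) • a + (d : ℂ) • b, ⟨add_mem (smul_mem' N _ ha.1) (smul_mem' N _ hb.1), ?_⟩, ?_⟩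
    · refine (norm_add_le _ _).trans ?_
      rw [norm_smul, norm_smul, Complex.norm_real, Complex.norm_real, Real.norm_of_nonneg hc,
        Real.norm_of_nonneg hd]
      calc c * ‖a‖ + d * ‖b‖ ≤ c * ‖x‖ + d * ‖x‖ :=
            add_le_add (mul_le_mul_of_nonneg_left ha.2 hc) (mul_le_mul_of_nonneg_left hb.2 hd)
        _ = ‖x‖ := by rw [← add_mul, hcd, one_mul]
    · funext m
      simp only [Pi.add_apply, Pi.smul_apply, mul_add, mul_smul_comm, vst_add, vst_smul, Complex.real_smul]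
  set t : ↥s → ℂ := fun m => vst Ω ((m : H →L[ℂ] H) * x)
  by_cases hcl : t ∈ closure K
  · obtain ⟨_, ⟨y, hy, rfl⟩, hd⟩ := Metric.mem_closure_iff.1 hcl ε hε
    refine ⟨y, hy.1, hy.2, fun m hm => ?_⟩
    have := (dist_pi_lt_iff hε).1 hd ⟨m, hm⟩
    rwa [dist_eq_norm, norm_sub_rev] at this
  exfalso
  obtain ⟨f, c, hfK, hft⟩ := RCLike.geometric_hahn_banach_closed_point (𝕜 := ℂ) hK.closure isClosed_closure hcl
  set p : H →L[ℂ] H := ∑ m : ↥s, f (Pi.single m 1) • (m : H →L[ℂ] H)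
  have hp : p ∈ N := sum_mem fun m _ => smul_mem' N _ (hsN m m.2)
  have hf : ∀ y, f (fun m : ↥s => vst Ω ((m : H →L[ℂ] H) * y)) = vst Ω (p * y) := fun y => by
    conv_lhs => rw [pi_eq_sum_univ' (fun m : ↥s => vst Ω ((m : H →L[ℂ] H) * y)), map_sum]
    simp [p, vst, mul_comm]
  have hft' : c < (vst Ω (p * x)).re := by simpa [← hf] using hft
  obtain ⟨y, hyN, hy, hle⟩ := ball_dominates h hN hp hx (sub_pos.2 hft')
  have := hfK _ (subset_closure ⟨y, ⟨hyN, hy⟩, rfl⟩)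
  simp only [hf, RCLike.re_to_complex] at this
  linarith

/-- Existence of the conditional expectation. -/
theorem exists_expect (h : TraceVec M Ω) (hN : (N : Set (H →L[ℂ] H)) ⊆ M) {x : H →L[ℂ] H} (hx : x ∈ M) :
    ∃ y ∈ N, ‖y‖ ≤ ‖x‖ ∧ ∀ m ∈ N, vst Ω (m * y) = vst Ω (m * x) := by
  classical
  have key : ∀ i : Finset ↥N × ℕ, ∃ y ∈ N, ‖y‖ ≤ ‖x‖ ∧
      ∀ m ∈ i.1, ‖vst Ω ((m : H →L[ℂ] H) * y) - vst Ω ((m : H →L[ℂ] H) * x)‖ < 1 / ((i.2 : ℝ) + 1) := fun i => by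
    obtain ⟨y, h1, h2, h3⟩ := approx_finset h hN hx (i.1.image Subtype.val)
      (fun m hm => by obtain ⟨a, -, rfl⟩ := Finset.mem_image.1 hm; exact a.2)
      (show (0:ℝ) < 1 / ((i.2 : ℝ) + 1) by positivity)
    exact ⟨y, h1, h2, fun m hm => h3 _ (Finset.mem_image_of_mem _ hm)⟩
  choose y hyN hyx hy using key
  obtain ⟨L, hL, hW⟩ := exists_wTendsto y (norm_nonneg x) hyx (Ultrafilter.of atTop)
  refine ⟨L, hW.mem hyN, hL, fun m hm => ?_⟩
  have h1 : Tendsto (fun i => vst Ω (m * y i)) (Ultrafilter.of atTop : Ultrafilter (Finset ↥N × ℕ))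
      (𝓝 (vst Ω (m * L))) := (hW.mul_left m) Ω Ω
  refine tendsto_nhds_unique h1 (Metric.tendsto_nhds.2 fun ε hε => Ultrafilter.of_le _ ?_)
  obtain ⟨k, hk⟩ := exists_nat_one_div_lt hε
  refine mem_atTop_sets.2 ⟨({⟨m, hm⟩}, k), fun i hi => ?_⟩
  show dist (vst Ω (m * y i)) (vst Ω (m * x)) < ε
  rw [dist_eq_norm]
  refine ((hy i ⟨m, hm⟩ (hi.1 (Finset.mem_singleton_self _))).trans_le ?_).trans hk
  exact one_div_le_one_div_of_le (by positivity) (by exact_mod_cast Nat.succ_le_succ hi.2)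

lemma expect_unique (h : TraceVec M Ω) (hN : (N : Set (H →L[ℂ] H)) ⊆ M) {y y' : H →L[ℂ] H} (hy : y ∈ N)
    (hy' : y' ∈ N) (he : ∀ m ∈ N, vst Ω (m * y) = vst Ω (m * y')) : y = y' := by
  have hd : y - y' ∈ N := sub_mem hy hy'
  have h0 := he _ (star_mem hd)
  rw [← sub_eq_zero, ← vst_sub, ← mul_sub, vst_star_mul, inner_self_eq_zero] at h0
  exact sub_eq_zero.1 (h.sep _ (hN hd) h0)

end Vale.Agent.P082
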