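import Vale.Agent.P082.Expect

/-! P082: vanishing of cohomology passes from countably generated subalgebras to the whole algebra. -/

set_option linter.unusedSectionVars false

noncomputable section

namespace Vale.Agent.P082

open Filter Topology
open scoped InnerProductSpace

variable {H : Type} [NormedAddCommGroup H] [InnerProductSpace ℂ H] [CompleteSpace H]
variable {M N : VonNeumannAlgebra H} {Ω : H}

local instance : IsDirectedOrder {S : Set (H →L[ℂ] H) // S.Countable ∧ S ⊆ (M : Set (H →L[ℂ] H))} :=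
  ⟨fun S T => ⟨⟨S.1 ∪ T.1, S.2.1.union T.2.1, Set.union_subset S.2.2 T.2.2⟩,
    Set.subset_union_left, Set.subset_union_right⟩⟩

/-- The von Neumann algebra generated by a set. -/
def gen (S : Set (H →L[ℂ] H)) : VonNeumannAlgebra H where
  toStarSubalgebra := StarSubalgebra.centralizer ℂ (StarSubalgebra.centralizer ℂ S : Set (H →L[ℂ] H))
  centralizer_centralizer' := by
    change Set.centralizer (Set.centralizer
      ((StarSubalgebra.centralizer ℂ (StarSubalgebra.centralizer ℂ S : Set (H →L[ℂ] H))) : Set (H →L[ℂ] H))) = _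
    rw [StarSubalgebra.coe_centralizer_centralizer, Set.centralizer_centralizer_centralizer]
    exact (StarSubalgebra.coe_centralizer_centralizer (R := ℂ) S).symm

lemma coe_gen (S : Set (H →L[ℂ] H)) :
    (gen S : Set (H →L[ℂ] H)) = Set.centralizer (Set.centralizer (S ∪ star S)) :=
  StarSubalgebra.coe_centralizer_centralizer (R := ℂ) S

lemma subset_gen (S : Set (H →L[ℂ] H)) : S ⊆ gen S := by
  rw [coe_gen]; exact Set.subset_union_left.trans Set.subset_centralizer_centralizer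

lemma gen_mono {S T : Set (H →L[ℂ] H)} (h : S ⊆ T) : (gen S : Set (H →L[ℂ] H)) ⊆ gen T := by
  rw [coe_gen, coe_gen]
  exact Set.centralizer_subset (Set.centralizer_subset (Set.union_subset_union h (Set.preimage_mono h)))

lemma gen_le {S : Set (H →L[ℂ] H)} (h : S ⊆ (M : Set (H →L[ℂ] H))) : (gen S : Set (H →L[ℂ] H)) ⊆ M := by
  rw [coe_gen, ← VonNeumannAlgebra.centralizer_centralizer M]
  exact Set.centralizer_subset (Set.centralizer_subset (Set.union_subset h fun a ha => by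
    simpa using star_mem (h ha)))

/-- The inclusion of a subalgebra. -/
def incl (h : (N : Set (H →L[ℂ] H)) ⊆ M) : N.toStarSubalgebra →L[ℂ] M.toStarSubalgebra :=
  LinearMap.mkContinuous
    { toFun := fun a => ⟨a.1, h a.2⟩
      map_add' := fun _ _ => rfl
      map_smul' := fun _ _ => rfl } 1 fun a => (one_mul ‖a‖).ge

lemma coe_incl (h : (N : Set (H →L[ℂ] H)) ⊆ M) (a : N.toStarSubalgebra) :
    (incl h a : H →L[ℂ] H) = a := rfl

/-- The conditional expectation as a linear map. -/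
theorem exists_expectation (ht : TraceVec M Ω) (h : (N : Set (H →L[ℂ] H)) ⊆ M) :
    ∃ E : M.toStarSubalgebra →L[ℂ] N.toStarSubalgebra, ‖E‖ ≤ 1 ∧ (∀ b, E (incl h b) = b) ∧
      (∀ b x, E (incl h b * x) = b * E x) ∧ ∀ x b, E (x * incl h b) = E x * b := by
  choose y hyN hyn hy using fun x : M.toStarSubalgebra => exists_expect (x := (x : H →L[ℂ] H)) ht h x.2
  have hu : ∀ (x : M.toStarSubalgebra) (b : H →L[ℂ] H), b ∈ N →
      (∀ m ∈ N, vst Ω (m * b) = vst Ω (m * x)) → y x = b := fun x b hb hh =>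
    expect_unique ht h (hyN x) hb fun m hm => (hy x m hm).trans (hh m hm).symm
  set E : M.toStarSubalgebra →L[ℂ] N.toStarSubalgebra := LinearMap.mkContinuous
    { toFun := fun x => (⟨y x, hyN x⟩ : N.toStarSubalgebra)
      map_add' := fun a b => Subtype.ext (hu (a + b) (y a + y b) (add_mem (hyN a) (hyN b)) fun m hm => by
        simp [mul_add, vst_add, hy a m hm, hy b m hm])
      map_smul' := fun c a => Subtype.ext (hu (c • a) (c • y a) (smul_mem' N c (hyN a)) fun m hm => by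
        simp [vst_smul, hy a m hm]) } 1 (fun x => by rw [one_mul]; exact hyn x) with hE
  refine ⟨E, LinearMap.mkContinuous_norm_le _ zero_le_one _, fun b => Subtype.ext ?_, fun b x => Subtype.ext ?_,
    fun x b => Subtype.ext ?_⟩
  · exact hu _ _ b.2 fun m _ => rfl
  · refine hu _ _ (mul_mem b.2 (hyN x)) fun m hm => ?_
    show vst Ω (m * ((b : H →L[ℂ] H) * y x)) = vst Ω (m * ((b : H →L[ℂ] H) * (x : H →L[ℂ] H)))
    rw [← mul_assoc, ← mul_assoc]
    exact hy x _ (mul_mem hm b.2)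
  · refine hu _ _ (mul_mem (hyN x) b.2) fun m hm => ?_
    show vst Ω (m * (y x * (b : H →L[ℂ] H))) = vst Ω (m * ((x : H →L[ℂ] H) * (b : H →L[ℂ] H)))
    rw [← mul_assoc, ← mul_assoc, ht.trace _ (mul_mem (h hm) (h (hyN x))) _ (h b.2),
      ht.trace _ (mul_mem (h hm) x.2) _ (h b.2), ← mul_assoc, ← mul_assoc]
    exact hy x _ (mul_mem b.2 hm)

lemma map_contractNth {A B : Type} [Mul A] [Mul B] (φ : A → B) (hφ : ∀ a b, φ (a * b) = φ a * φ b) {k : ℕ}
    (j : Fin (k + 1)) (a : Fin (k + 1) → A) :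
    (fun i => φ (Fin.contractNth j (· * ·) a i)) = Fin.contractNth j (· * ·) (fun i => φ (a i)) := by
  funext i; unfold Fin.contractNth; split_ifs <;> simp [hφ]

lemma hd_map {A B : Type} [Ring A] [Module ℂ A] [Ring B] [Module ℂ B] (E : B →ₗ[ℂ] A) (ι : A → B)
    (hι : ∀ a b, ι (a * b) = ι a * ι b) (hl : ∀ b x, E (ι b * x) = b * E x)
    (hr : ∀ x b, E (x * ι b) = E x * b) {k : ℕ} (f : (Fin k → B) → B) (a : Fin (k + 1) → A) :
    hd k (fun v => E (f fun i => ι (v i))) a = E (hd k f fun i => ι (a i)) := by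
  simp only [hd, map_add, map_sum, map_smul, hl, hr, map_contractNth ι hι]
  rfl

/-- Countably generated subalgebras carry primitives of uniformly bounded norm. -/
lemma uniform_primitive (P : Set (H →L[ℂ] H) → ℝ → Prop)
    (hP : ∀ S : Set (H →L[ℂ] H), S.Countable → S ⊆ (M : Set (H →L[ℂ] H)) → ∃ C, P S C)
    (hmono : ∀ S C C', C ≤ C' → P S C → P S C') :
    ∃ C : ℝ, 0 ≤ C ∧ ∀ S : Set (H →L[ℂ] H), S.Countable → S ⊆ (M : Set (H →L[ℂ] H)) →
      ∃ T, S ⊆ T ∧ T.Countable ∧ T ⊆ (M : Set (H →L[ℂ] H)) ∧ P T C := by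
  by_contra hne
  simp only [not_exists, not_and, not_forall] at hne
  choose S hSc hSM hbad using fun m : ℕ => hne m m.cast_nonneg
  obtain ⟨C, hC⟩ := hP (⋃ m, S m) (Set.countable_iUnion hSc) (Set.iUnion_subset hSM)
  obtain ⟨m, hm⟩ := exists_nat_ge C
  exact hbad m (⋃ m, S m) (Set.subset_iUnion S m) (Set.countable_iUnion hSc) (Set.iUnion_subset hSM)
    (hmono _ _ _ hm hC)

variable {n : ℕ}

/-- A primitive with norm at most `C` of the compression of `f` to `gen S`. -/
def Prim (M : VonNeumannAlgebra H) (f : Cochain M (n + 1)) (S : Set (H →L[ℂ] H)) (C : ℝ) : Prop :=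
  ∃ (h : (gen S : Set (H →L[ℂ] H)) ⊆ M)
    (E : M.toStarSubalgebra →L[ℂ] (gen S).toStarSubalgebra) (g : Cochain (gen S) n),
    ‖E‖ ≤ 1 ∧ (∀ b, E (incl h b) = b) ∧ ‖g‖ ≤ C ∧ ∀ a, hd n g a = E (f fun i => incl h (a i))

lemma exists_prim (ht : TraceVec M Ω) (f : Cochain M (n + 1)) (hf : ∀ a, hd (n + 1) f a = 0)
    {S : Set (H →L[ℂ] H)} (hSM : S ⊆ (M : Set (H →L[ℂ] H))) (hv : Vanishes (gen S) n) :
    ∃ C, Prim M f S C := by
  obtain ⟨E, hE1, hEi, hEl, hEr⟩ := exists_expectation ht (gen_le hSM)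
  set F : Cochain (gen S) (n + 1) :=
    E.compContinuousMultilinearMap (f.compContinuousLinearMap fun _ => incl (gen_le hSM))
  have hF : ∀ a, hd (n + 1) F a = 0 := fun a => by
    have := hd_map E.toLinearMap (incl (gen_le hSM)) (fun _ _ => rfl) hEl hEr f a
    rw [hf, map_zero] at this
    exact this
  obtain ⟨g, hg⟩ := hv F hF
  exact ⟨‖g‖, gen_le hSM, E, g, hE1, hEi, le_rfl, hg⟩

variable {f : Cochain M (n + 1)} {C : ℝ}

/-- The values of one local primitive, as operators. -/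
def val {N : VonNeumannAlgebra H} (E : M.toStarSubalgebra →L[ℂ] N.toStarSubalgebra) (g : Cochain N n)
    (a : Fin n → M.toStarSubalgebra) : H →L[ℂ] H :=
  (g fun i => E (a i) : N.toStarSubalgebra)

lemma val_update [DecidableEq (Fin n)] {N : VonNeumannAlgebra H} (E : M.toStarSubalgebra →L[ℂ] N.toStarSubalgebra) (g : Cochain N n)
    (a : Fin n → M.toStarSubalgebra) (i : Fin n) :
    (∀ x y, val E g (Function.update a i (x + y)) = val E g (Function.update a i x) + val E g (Function.update a i y)) ∧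
      ∀ (c : ℂ) x, val E g (Function.update a i (c • x)) = c • val E g (Function.update a i x) := by
  have e : ∀ z, (fun j => E (Function.update a i z j)) = Function.update (fun j => E (a j)) i (E z) :=
    fun z => funext fun j => Function.apply_update (fun _ => (E : _ → _)) a i z j
  exact ⟨fun x y => by simp [val, e], fun c x => by simp [val, e]⟩

lemma norm_val {N : VonNeumannAlgebra H} {E : M.toStarSubalgebra →L[ℂ] N.toStarSubalgebra} (hE : ‖E‖ ≤ 1)
    {g : Cochain N n} (hC : 0 ≤ C) (hg : ‖g‖ ≤ C) (a : Fin n → M.toStarSubalgebra) :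
    ‖val E g a‖ ≤ C * ∏ i, ‖a i‖ := by
  refine (g.le_opNorm _).trans (mul_le_mul hg (Finset.prod_le_prod (fun _ _ => norm_nonneg _)
    fun i _ => (E.le_of_opNorm_le hE _).trans_eq (one_mul _)) (Finset.prod_nonneg fun _ _ => norm_nonneg _) hC)

lemma local_eq {N : VonNeumannAlgebra H} {h : (N : Set (H →L[ℂ] H)) ⊆ M}
    {E : M.toStarSubalgebra →L[ℂ] N.toStarSubalgebra} {g : Cochain N n}
    (hEi : ∀ b, E (incl h b) = b) (hg : ∀ a, hd n g a = E (f fun i => incl h (a i)))
    (a : Fin (n + 1) → M.toStarSubalgebra) (ha : ∀ i, (a i : H →L[ℂ] H) ∈ N) (hfa : (f a : H →L[ℂ] H) ∈ N) :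
    ((a 0 : H →L[ℂ] H) * val E g (Fin.tail a) +
      (∑ j : Fin n, (-1 : ℂ) ^ ((j : ℕ) + 1) • val E g (Fin.contractNth j.castSucc (· * ·) a)) +
      (-1 : ℂ) ^ (n + 1) • (val E g (Fin.init a) * (a (Fin.last n) : H →L[ℂ] H))) = (f a : H →L[ℂ] H) := by
  obtain ⟨a', rfl⟩ : ∃ a' : Fin (n + 1) → N.toStarSubalgebra, a = fun i => incl h (a' i) :=
    ⟨fun i => ⟨a i, ha i⟩, rfl⟩
  have efa : ((E (f fun i => incl h (a' i)) : N.toStarSubalgebra) : H →L[ℂ] H) = f fun i => incl h (a' i) := by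
    conv_lhs => rw [show (f fun i => incl h (a' i)) = incl h ⟨_, hfa⟩ from rfl, hEi]
  have ec : ∀ j : Fin (n + 1), (fun i => E (Fin.contractNth j (· * ·) (fun i => incl h (a' i)) i)) =
      Fin.contractNth j (· * ·) a' := fun j => by
    rw [← map_contractNth (incl h) (fun _ _ => rfl)]
    simp only [hEi]
  have h1 := congrArg (fun z : N.toStarSubalgebra => (z : H →L[ℂ] H)) (hg a')
  simp only [hd, efa] at h1
  rw [← h1]
  have et : (fun i => E (Fin.tail (fun i => incl h (a' i)) i)) = Fin.tail a' :=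
    funext fun i => hEi (a' i.succ)
  have ei : (fun i => E (Fin.init (fun i => incl h (a' i)) i)) = Fin.init a' :=
    funext fun i => hEi (a' i.castSucc)
  simp [val, ec, et, ei, coe_incl]

/-- Local primitives of bounded norm give a primitive. -/
theorem glue (hC0 : 0 ≤ C)
    (hC : ∀ S : Set (H →L[ℂ] H), S.Countable → S ⊆ (M : Set (H →L[ℂ] H)) →
      ∃ T, S ⊆ T ∧ T.Countable ∧ T ⊆ (M : Set (H →L[ℂ] H)) ∧ Prim M f T C) :
    ∃ G : Cochain M n, ∀ a, hd n G a = f a := by
  classical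
  choose T hST hTc hTM hTM' E g hE1 hEi hgC hg using
    fun S : {S : Set (H →L[ℂ] H) // S.Countable ∧ S ⊆ (M : Set (H →L[ℂ] H))} => hC S.1 S.2.1 S.2.2
  have : Nonempty {S : Set (H →L[ℂ] H) // S.Countable ∧ S ⊆ (M : Set (H →L[ℂ] H))} :=
    ⟨⟨∅, Set.countable_empty, Set.empty_subset _⟩⟩
  set u : Ultrafilter {S : Set (H →L[ℂ] H) // S.Countable ∧ S ⊆ (M : Set (H →L[ℂ] H))} := Ultrafilter.of atTop
  choose L hLn hL using fun a : Fin n → M.toStarSubalgebra =>
    exists_wTendsto (fun S => val (E S) (g S) a) (mul_nonneg hC0 (Finset.prod_nonneg fun i _ => norm_nonneg (a i)))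
      (fun S => norm_val (hE1 S) hC0 (hgC S) a) u
  have hLM : ∀ a, L a ∈ M := fun a => (hL a).mem fun S => hTM' S (g S fun i => E S (a i)).2
  set G₀ : MultilinearMap ℂ (fun _ : Fin n => M.toStarSubalgebra) M.toStarSubalgebra :=
    { toFun := fun a => ⟨L a, hLM a⟩
      map_update_add' := fun {_} a i x y => Subtype.ext ((hL _).unique (((hL _).add (hL _)).congr'
        (Eventually.of_forall fun S => ((val_update (E S) (g S) a i).1 x y).symm)))
      map_update_smul' := fun {_} a i c x => Subtype.ext ((hL _).unique (((hL _).smul c).congr'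
        (Eventually.of_forall fun S => ((val_update (E S) (g S) a i).2 c x).symm))) }
  obtain ⟨G, hG⟩ : ∃ G : Cochain M n, ∀ v, (G v : H →L[ℂ] H) = L v :=
    ⟨G₀.mkContinuous C fun a => hLn a, fun _ => rfl⟩
  refine ⟨G, fun a => Subtype.ext ?_⟩
  set K : Set (H →L[ℂ] H) := Set.range (fun i => (a i : H →L[ℂ] H)) ∪ {(f a : H →L[ℂ] H)}
  have hK : K.Countable ∧ K ⊆ (M : Set (H →L[ℂ] H)) :=
    ⟨(Set.countable_range _).union (Set.countable_singleton _), Set.union_subset
      (Set.range_subset_iff.2 fun i => (a i).2) (Set.singleton_subset_iff.2 (f a).2)⟩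
  have h2 := (((hL (Fin.tail a)).mul_left (a 0 : H →L[ℂ] H)).add
    (wTendsto_sum Finset.univ fun j _ => (hL (Fin.contractNth (j : Fin n).castSucc (· * ·) a)).smul
      ((-1 : ℂ) ^ ((j : ℕ) + 1)))).add
    (((hL (Fin.init a)).mul_right (a (Fin.last n) : H →L[ℂ] H)).smul ((-1 : ℂ) ^ (n + 1)))
  have hev := Ultrafilter.of_le (atTop : Filter _) (mem_atTop_sets.2
    (show ∃ S₀ : {S : Set (H →L[ℂ] H) // S.Countable ∧ S ⊆ (M : Set (H →L[ℂ] H))}, ∀ S, S₀ ≤ S →
        S ∈ {S | ((a 0 : H →L[ℂ] H) * val (E S) (g S) (Fin.tail a) +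
          (∑ j : Fin n, (-1 : ℂ) ^ ((j : ℕ) + 1) • val (E S) (g S) (Fin.contractNth j.castSucc (· * ·) a)) +
          (-1 : ℂ) ^ (n + 1) • (val (E S) (g S) (Fin.init a) * (a (Fin.last n) : H →L[ℂ] H))) =
            (f a : H →L[ℂ] H)} from
      ⟨⟨K, hK⟩, fun S hS => local_eq (hEi S) (hg S) a
        (fun i => subset_gen _ (hST S (hS (Or.inl ⟨i, rfl⟩))))
        (subset_gen _ (hST S (hS (Or.inr rfl))))⟩))
  have h3 := (h2.congr' hev).unique (wTendsto_const _)
  simpa [hd, hG] using h3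

/-- **Reduction to countably generated subalgebras.** -/
theorem vanishes_of_countGen (ht : TraceVec M Ω) (n : ℕ)
    (hyp : ∀ N : VonNeumannAlgebra H, (N : Set (H →L[ℂ] H)) ⊆ M → CountGen N → Vanishes N n) :
    Vanishes M n := by
  intro f hf
  obtain ⟨C, hC0, hC⟩ := uniform_primitive (M := M) (Prim M f)
    (fun S hSc hSM => exists_prim ht f hf hSM (hyp _ (gen_le hSM) ⟨S, hSc, coe_gen S⟩))
    fun S C C' hCC ⟨h, E, g, a, b, c, d⟩ => ⟨h, E, g, a, b, c.trans hCC, d⟩
  exact glue hC0 hC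

end Vale.Agent.P082
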