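import Vale.Agent.P082.Defs

/-! P082: weak limits of bounded families of operators along an ultrafilter. -/

set_option linter.unusedSectionVars false

noncomputable section

namespace Vale.Agent.P082

open Filter Topology InnerProductSpace
open scoped InnerProductSpace

variable {H : Type} [NormedAddCommGroup H] [InnerProductSpace ℂ H] [CompleteSpace H] {ι : Type}

/-- `L` is the weak limit of `T` along `u`. -/
def WTendsto (T : ι → H →L[ℂ] H) (u : Ultrafilter ι) (L : H →L[ℂ] H) : Prop :=
  ∀ x y : H, Tendsto (fun i => ⟪x, T i y⟫_ℂ) u (𝓝 ⟪x, L y⟫_ℂ)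

variable {T T' : ι → H →L[ℂ] H} {u : Ultrafilter ι} {L L' : H →L[ℂ] H}

lemma WTendsto.unique (h : WTendsto T u L) (h' : WTendsto T u L') : L = L' :=
  ContinuousLinearMap.ext fun y => ext_inner_left ℂ fun x => tendsto_nhds_unique (h x y) (h' x y)

lemma WTendsto.add (h : WTendsto T u L) (h' : WTendsto T' u L') :
    WTendsto (fun i => T i + T' i) u (L + L') := fun x y => by
  simpa [inner_add_right] using (h x y).add (h' x y)

lemma WTendsto.smul (h : WTendsto T u L) (c : ℂ) : WTendsto (fun i => c • T i) u (c • L) := fun x y => by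
  simpa [inner_smul_right] using (h x y).const_mul c

lemma WTendsto.mul_left (h : WTendsto T u L) (a : H →L[ℂ] H) :
    WTendsto (fun i => a * T i) u (a * L) := fun x y => by
  simpa [ContinuousLinearMap.adjoint_inner_left] using h (ContinuousLinearMap.adjoint a x) y

lemma WTendsto.mul_right (h : WTendsto T u L) (a : H →L[ℂ] H) :
    WTendsto (fun i => T i * a) u (L * a) := fun x y => by
  simpa using h x (a y)

lemma wTendsto_sum {κ : Type} (s : Finset κ) {T : κ → ι → H →L[ℂ] H} {L : κ → H →L[ℂ] H}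
    (h : ∀ j ∈ s, WTendsto (T j) u (L j)) : WTendsto (fun i => ∑ j ∈ s, T j i) u (∑ j ∈ s, L j) :=
  fun x y => by
    simp only [sum_apply, inner_sum]
    exact tendsto_finsetSum s fun j hj => h j hj x y

lemma WTendsto.congr' (h : WTendsto T u L) (e : ∀ᶠ i in (u : Filter ι), T i = T' i) : WTendsto T' u L :=
  fun x y => (h x y).congr' (e.mono fun i hi => by rw [hi])

lemma wTendsto_const (L : H →L[ℂ] H) : WTendsto (fun _ => L) u L := fun _ _ => tendsto_const_nhds

/-- A weak limit of elements commuting with `a` commutes with `a`. -/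
lemma WTendsto.commute (h : WTendsto T u L) {a : H →L[ℂ] H} (ha : ∀ i, a * T i = T i * a) :
    a * L = L * a :=
  (h.mul_left a).unique ((h.mul_right a).congr' (Eventually.of_forall fun i => (ha i).symm))

/-- A weak limit stays in a von Neumann algebra. -/
lemma WTendsto.mem (h : WTendsto T u L) {M : VonNeumannAlgebra H} (hT : ∀ i, T i ∈ M) : L ∈ M := by
  rw [← VonNeumannAlgebra.commutant_commutant M, VonNeumannAlgebra.mem_commutant_iff]
  intro a ha
  exact h.commute fun i => (VonNeumannAlgebra.mem_commutant_iff.1 ha (T i) (hT i)).symm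

/-- Bounded families have weak limits along ultrafilters. -/
theorem exists_wTendsto (T : ι → H →L[ℂ] H) {C : ℝ} (hC : 0 ≤ C) (hT : ∀ i, ‖T i‖ ≤ C)
    (u : Ultrafilter ι) : ∃ L : H →L[ℂ] H, ‖L‖ ≤ C ∧ WTendsto T u L := by
  have hlim : ∀ x y : H, ∃ z : ℂ, ‖z‖ ≤ C * ‖y‖ * ‖x‖ ∧ Tendsto (fun i => ⟪T i y, x⟫_ℂ) u (𝓝 z) := by
    intro x y
    have hb : ∀ i, ⟪T i y, x⟫_ℂ ∈ Metric.closedBall (0 : ℂ) (C * ‖y‖ * ‖x‖) := fun i => by
      rw [mem_closedBall_zero_iff]
      exact (norm_inner_le_norm _ _).trans (mul_le_mul_of_nonneg_right ((T i).le_of_opNorm_le (hT i) y)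
        (norm_nonneg _))
    obtain ⟨z, hz, hle⟩ := (isCompact_closedBall (0 : ℂ) (C * ‖y‖ * ‖x‖)).ultrafilter_le_nhds
      (u.map fun i => ⟪T i y, x⟫_ℂ) (le_principal_iff.2 (Filter.mem_map.2 (Eventually.of_forall (p := fun i => ⟪T i y, x⟫_ℂ ∈ Metric.closedBall (0 : ℂ) (C * ‖y‖ * ‖x‖)) hb)))
    exact ⟨z, mem_closedBall_zero_iff.1 hz, hle⟩
  choose φ hφb hφ using hlim
  have hv : ∀ y : H, ∃ v : H, ∀ x, ⟪v, x⟫_ℂ = φ x y := by
    intro y
    set l : H →ₗ[ℂ] ℂ :=
      { toFun := fun x => φ x y
        map_add' := fun a b => tendsto_nhds_unique (hφ (a + b) y)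
          (by simpa [inner_add_right] using (hφ a y).add (hφ b y))
        map_smul' := fun c a => tendsto_nhds_unique (hφ (c • a) y)
          (by simpa [inner_smul_right] using (hφ a y).const_mul c) }
    exact ⟨(InnerProductSpace.toDual ℂ H).symm (l.mkContinuous (C * ‖y‖) fun x => hφb x y),
      fun x => InnerProductSpace.toDual_symm_apply⟩
  choose v hv using hv
  have hvb : ∀ y, ‖v y‖ ≤ C * ‖y‖ := fun y => by
    have h := hφb (v y) y
    rw [← hv y, inner_self_eq_norm_sq_to_K] at h
    simp only [RCLike.norm_ofReal, norm_pow, abs_norm] at h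
    rcases (norm_nonneg (v y)).eq_or_lt with h0 | h0
    · rw [← h0]; positivity
    · nlinarith
  set L₀ : H →ₗ[ℂ] H :=
    { toFun := v
      map_add' := fun a b => ext_inner_right ℂ fun x => by
        rw [hv, inner_add_left, hv, hv]
        exact tendsto_nhds_unique (hφ x (a + b)) (by simpa [inner_add_left] using (hφ x a).add (hφ x b))
      map_smul' := fun c a => ext_inner_right ℂ fun x => by
        rw [hv, RingHom.id_apply, inner_smul_left, hv]
        exact tendsto_nhds_unique (hφ x (c • a))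
          (by simpa [inner_smul_left, mul_comm] using (hφ x a).mul_const ((starRingEnd ℂ) c)) }
  refine ⟨L₀.mkContinuous C hvb, L₀.mkContinuous_norm_le hC _, fun x y => ?_⟩
  have h := ((continuous_star.tendsto _).comp (hφ x y))
  rw [← hv] at h
  simpa [Function.comp_def, L₀, inner_conj_symm] using h

end Vale.Agent.P082
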